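import Vale.Agent.P279.Nested

/-!
# Nagata's inequality up to relative error `O(r^(-5/3))` for every number of points
-/

noncomputable section

namespace Vale.Agent.Results.P279.AlmostNagataAllR

open MvPolynomial Vale.Agent.P279

/-- There is a constant `A` such that for every `r` and very general points `(1 : a i 0 : a i 1)`,
every plane curve of degree `d` with multiplicities at least `m i` satisfies
`(1 - A / r^(5/3)) * ∑ m i ≤ d * √r`. -/
theorem result :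
    ∃ A : ℝ, ∀ r : ℕ,
      ∃ S : Set (MvPolynomial (Fin r × Fin 2) ℂ), S.Countable ∧ (∀ P ∈ S, P ≠ 0) ∧
        (∃ a : Fin r → Fin 2 → ℂ, ∀ P ∈ S, eval (fun v => a v.1 v.2) P ≠ 0) ∧
        ∀ a : Fin r → Fin 2 → ℂ, (∀ P ∈ S, eval (fun v => a v.1 v.2) P ≠ 0) →
          Function.Injective a ∧
          ∀ (d : ℕ) (F : MvPolynomial (Fin 3) ℂ), 0 < d → F.IsHomogeneous d → F ≠ 0 →
          ∀ m : Fin r → ℕ, (∀ i, VanishOrder F (chartPoint (a i)) (m i)) →
            (1 - A / (r : ℝ) ^ (5 / 3 : ℝ)) * (∑ i, (m i : ℝ)) ≤ d * Real.sqrt r := by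
  classical
  obtain ⟨R, A, hall⟩ := Bd.all
  refine ⟨A + (R : ℝ) ^ (5 / 3 : ℝ), fun r => ?_⟩
  let Q : ℕ × (Fin r → ℕ) → MvPolynomial (Fin r × Fin 2) ℂ := fun p =>
    if h : Empty p.1 p.2 then h.generic.choose else 1
  let D : Fin r × Fin r → MvPolynomial (Fin r × Fin 2) ℂ := fun p =>
    if p.1 = p.2 then 1 else X (p.1, 0) - X (p.2, 0)
  have hne : ∀ P ∈ Set.range Q ∪ Set.range D, P ≠ 0 := by
    rintro P (⟨p, rfl⟩ | ⟨p, rfl⟩)
    · simp only [Q]; split_ifs with h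
      · exact h.generic.choose_spec.1
      · exact one_ne_zero
    · simp only [D]; split_ifs with h
      · exact one_ne_zero
      · rw [sub_ne_zero]; exact fun hh => h (congrArg Prod.fst (X_injective hh))
  have hcount : (Set.range Q ∪ Set.range D).Countable :=
    (Set.countable_range Q).union (Set.countable_range D)
  refine ⟨_, hcount, hne, ?_, fun a ha => ⟨fun i j hij => ?_, fun d F _ hF hF0 m hv => ?_⟩⟩
  · obtain ⟨x, hx⟩ := exists_eval_ne_zero _ hcount hne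
    exact ⟨fun i k => x (i, k), hx⟩
  · by_contra hne'
    have := ha (D (i, j)) (Or.inr ⟨_, rfl⟩)
    simp [D, hne', hij] at this
  have hkey : ¬ Empty d m := by
    intro h
    have := ha (Q (d, m)) (Or.inl ⟨_, rfl⟩)
    simp only [Q, dif_pos h] at this
    exact hF0 ((noForm_chart_iff a d m).mpr (h.generic.choose_spec.2 a this) F hF hv)
  have hm : (0 : ℝ) ≤ ∑ i, (m i : ℝ) := Finset.sum_nonneg fun i _ => Nat.cast_nonneg _
  rcases Nat.eq_zero_or_pos r with hr0 | hr0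
  · subst hr0; simp
  have hrpos : (0 : ℝ) < r := by exact_mod_cast hr0
  have hpow : (0 : ℝ) < (r : ℝ) ^ (5 / 3 : ℝ) := Real.rpow_pos_of_pos hrpos _
  have hR0 : (0 : ℝ) ≤ (R : ℝ) ^ (5 / 3 : ℝ) := Real.rpow_nonneg (Nat.cast_nonneg R) _
  rcases lt_or_ge r R with hsmall | hlarge
  · have hle : (r : ℝ) ^ (5 / 3 : ℝ) ≤ A + (R : ℝ) ^ (5 / 3 : ℝ) := by
      have := Real.rpow_le_rpow hrpos.le
        (show (r : ℝ) ≤ R by exact_mod_cast hsmall.le) (by norm_num : (0 : ℝ) ≤ 5 / 3)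
      have : (0 : ℝ) ≤ A := Nat.cast_nonneg A
      linarith
    have h1 : 1 - ((A : ℝ) + (R : ℝ) ^ (5 / 3 : ℝ)) / (r : ℝ) ^ (5 / 3 : ℝ) ≤ 0 := by
      rw [sub_nonpos, one_le_div hpow]; exact hle
    calc _ ≤ (0 : ℝ) := mul_nonpos_of_nonpos_of_nonneg h1 hm
      _ ≤ _ := by positivity
  · have hb := (hall r hlarge).total hkey
    have hs : 0 < Real.sqrt r := Real.sqrt_pos.mpr hrpos
    have hA : (A : ℝ) / (r : ℝ) ^ (5 / 3 : ℝ) ≤
        ((A : ℝ) + (R : ℝ) ^ (5 / 3 : ℝ)) / (r : ℝ) ^ (5 / 3 : ℝ) :=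
      div_le_div_of_nonneg_right (by linarith) hpow.le
    refine (mul_le_mul_of_nonneg_right
      (show _ ≤ 1 - (A : ℝ) / (r : ℝ) ^ (5 / 3 : ℝ) by linarith) hm).trans ?_
    refine le_of_mul_le_mul_left ?_ hs
    calc Real.sqrt r * ((1 - (A : ℝ) / (r : ℝ) ^ (5 / 3 : ℝ)) * ∑ i, (m i : ℝ))
        ≤ d * r := by rw [← mul_assoc]; exact hb
      _ = Real.sqrt r * (d * Real.sqrt r) := by
        rw [mul_left_comm, Real.mul_self_sqrt hrpos.le]

end Vale.Agent.Results.P279.AlmostNagataAllR
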