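import Vale.Agent.P279.Sphere

/-!
# Weighted Nagata inequalities from ten colliding square blocks
-/

noncomputable section

namespace Vale.Agent.Results.P279.BlockSphereBound

open MvPolynomial Vale.Agent.P279

/-- For very general points `(1 : a i 0 : a i 1)`, every plane curve satisfies the weighted
inequalities obtained from ten square blocks and the sphere `∑ x = 3`, `∑ x² = 1`, the resulting
bound on the total multiplicity, its form for `r = 81 t² + 78 t + 19`, and Nagata's inequality at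
ten points for sufficiently dispersed multiplicities. -/
theorem result (r : ℕ) :
    ∃ S : Set (MvPolynomial (Fin r × Fin 2) ℂ), S.Countable ∧ (∀ P ∈ S, P ≠ 0) ∧
      (∃ a : Fin r → Fin 2 → ℂ, ∀ P ∈ S, eval (fun v => a v.1 v.2) P ≠ 0) ∧
      ∀ a : Fin r → Fin 2 → ℂ, (∀ P ∈ S, eval (fun v => a v.1 v.2) P ≠ 0) →
        Function.Injective a ∧
        ∀ (d : ℕ) (F : MvPolynomial (Fin 3) ℂ), 0 < d → F.IsHomogeneous d → F ≠ 0 →
        ∀ m : Fin r → ℕ, (∀ i, VanishOrder F (chartPoint (a i)) (m i)) →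
          (∀ (k : Fin 10 → ℕ) (e : (Σ j, Fin (k j) × Fin (k j)) → Fin r), Function.Injective e →
            ∀ x : Fin 10 → ℝ, ∑ j, x j = 3 → ∑ j, x j ^ 2 = 1 →
              ∑ j, x j * ((∑ v, (m (e ⟨j, v⟩) : ℝ)) / (k j : ℝ)) ≤ d) ∧
          (∀ k : Fin 10 → ℕ, ∑ j, k j ^ 2 ≤ r →
            (3 * (∑ j, (k j : ℝ)) + Real.sqrt (10 * (∑ j, (k j : ℝ) ^ 2) - (∑ j, (k j : ℝ)) ^ 2))
              / 10 * (∑ i, (m i : ℝ)) ≤ d * r) ∧
          (∀ t : ℕ, r = 81 * t ^ 2 + 78 * t + 19 →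
            (1 - 1 / (16 * (r : ℝ) ^ 2)) * (∑ i, (m i : ℝ)) ≤ d * Real.sqrt r) ∧
          (r = 10 → (Real.sqrt 10 - 3) ^ 2 * (∑ i, (m i : ℝ)) ^ 2 <
              10 * (∑ i, (m i : ℝ) ^ 2) - (∑ i, (m i : ℝ)) ^ 2 →
            (∑ i, (m i : ℝ)) < d * Real.sqrt 10) := by
  classical
  let Q : ℕ × (Fin r → ℕ) → MvPolynomial (Fin r × Fin 2) ℂ := fun p =>
    if h : Empty p.1 p.2 then h.generic.choose else 1
  let D : Fin r × Fin r → MvPolynomial (Fin r × Fin 2) ℂ := fun p =>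
    if p.1 = p.2 then 1 else X (p.1, 0) - X (p.2, 0)
  have hne : ∀ P ∈ Set.range Q ∪ Set.range D, P ≠ 0 := by
    rintro P (⟨p, rfl⟩ | ⟨p, rfl⟩)
    · simp only [Q]; split_ifs with h
      · exact h.generic.choose_spec.1
      · exact one_ne_zero
    · simp only [D]; split_ifs with h
      · exact one_ne_zero
      · rw [sub_ne_zero]; exact fun hh => h (congrArg Prod.fst (X_injective hh))
  have hcount : (Set.range Q ∪ Set.range D).Countable :=
    (Set.countable_range Q).union (Set.countable_range D)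
  refine ⟨_, hcount, hne, ?_, fun a ha => ⟨fun i j hij => ?_, fun d F hd hF hF0 m hv => ?_⟩⟩
  · obtain ⟨x, hx⟩ := exists_eval_ne_zero _ hcount hne
    exact ⟨fun i k => x (i, k), hx⟩
  · by_contra hne'
    have := ha (D (i, j)) (Or.inr ⟨_, rfl⟩)
    simp [D, hne', hij] at this
  have hkey : ¬ Empty d m := by
    intro h
    have := ha (Q (d, m)) (Or.inl ⟨_, rfl⟩)
    simp only [Q, dif_pos h] at this
    exact hF0 ((noForm_chart_iff a d m).mpr (h.generic.choose_spec.2 a this) F hF hv)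
  have hblock : ∀ (k : Fin 10 → ℕ) (e : (Σ j, Fin (k j) × Fin (k j)) → Fin r),
      Function.Injective e → ∀ x : Fin 10 → ℝ, ∑ j, x j = 3 → ∑ j, x j ^ 2 = 1 →
        ∑ j, x j * ((∑ v, (m (e ⟨j, v⟩) : ℝ)) / (k j : ℝ)) ≤ d := by
    intro k e he x h1 h2
    exact not_lt.mp fun h => hkey (empty_of_real_blocks h1 h2 e he d m h)
  have havg : ∀ k : Fin 10 → ℕ, ∑ j, k j ^ 2 ≤ r →
      (3 * (∑ j, (k j : ℝ)) + Real.sqrt (10 * (∑ j, (k j : ℝ) ^ 2) - (∑ j, (k j : ℝ)) ^ 2))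
        / 10 * (∑ i, (m i : ℝ)) ≤ d * r := by
    intro k hk
    obtain ⟨x, h1, h2, h3⟩ := exists_optimal (fun j => (k j : ℝ))
    rw [← h3]
    exact average_blocks m d hk fun e he => hblock k e he x h1 h2
  refine ⟨hblock, havg, fun t ht => ?_, fun hr hdisp => ?_⟩
  · let k : Fin 10 → ℕ := ![4 * t + 2, 4 * t + 2, 4 * t + 2, 3 * t + 1, 2 * t + 1, 2 * t + 1,
      2 * t + 1, 2 * t + 1, 2 * t + 1, 2 * t + 1]
    have hk1 : ∑ j, (k j : ℝ) = 27 * t + 13 := by simp [k, Fin.sum_univ_succ]; ring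
    have hk2 : ∑ j, (k j : ℝ) ^ 2 = r := by rw [ht]; simp [k, Fin.sum_univ_succ]; ring
    have hk : ∑ j, k j ^ 2 ≤ r := le_of_eq (by exact_mod_cast hk2)
    have hrt : (r : ℝ) = 81 * (t : ℝ) ^ 2 + 78 * t + 19 := by exact_mod_cast ht
    have h := havg k hk
    rw [hk1, hk2, show 10 * (r : ℝ) - (27 * (t : ℝ) + 13) ^ 2 = r + 2 by rw [hrt]; ring] at h
    have hest := family_estimate (Nat.cast_nonneg t) hrt
    have hr0 : (0 : ℝ) < r := by rw [hrt]; positivity
    have hm : (0 : ℝ) ≤ ∑ i, (m i : ℝ) := Finset.sum_nonneg fun i _ => Nat.cast_nonneg _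
    refine le_of_mul_le_mul_right ?_ (Real.sqrt_pos.mpr hr0)
    rw [mul_assoc (d : ℝ), Real.mul_self_sqrt hr0.le]
    nlinarith [mul_le_mul_of_nonneg_right hest hm]
  · subst hr
    obtain ⟨x, h1, h2, h3⟩ := exists_optimal (fun j => (m j : ℝ))
    let e : (Σ _j : Fin 10, Fin 1 × Fin 1) → Fin 10 := fun v => v.1
    have he : Function.Injective e := by
      rintro ⟨a, b⟩ ⟨c, d⟩ h
      simp only [e] at h
      subst h
      simp only [Sigma.mk.injEq, heq_eq_eq, true_and]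
      exact Subsingleton.elim _ _
    have h := hblock (fun _ => 1) e he x h1 h2
    simp [e] at h
    rw [h3] at h
    have hS : (0 : ℝ) ≤ ∑ i, (m i : ℝ) := Finset.sum_nonneg fun i _ => Nat.cast_nonneg _
    have h10 : Real.sqrt 10 ^ 2 = 10 := Real.sq_sqrt (by norm_num)
    have hgt : (Real.sqrt 10 - 3) * (∑ i, (m i : ℝ)) <
        Real.sqrt (10 * (∑ i, (m i : ℝ) ^ 2) - (∑ i, (m i : ℝ)) ^ 2) := by
      apply Real.lt_sqrt_of_sq_lt
      rw [mul_pow]; exact hdisp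
    have hs : 0 < Real.sqrt 10 := Real.sqrt_pos.mpr (by norm_num)
    nlinarith [mul_lt_mul_of_pos_right
      (show Real.sqrt 10 * (∑ i, (m i : ℝ)) < 10 * d by linarith) hs]

end Vale.Agent.Results.P279.BlockSphereBound
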